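import Crest.Agent.Helper17.SnakyDefs

/-!
A fast stream checker for Snaky certificates (statement S0047).

A list of alternatives is stored as a stream of 16-bit tokens in prefix order, packed into numerals:
the lowest 16 bits of a numeral hold its number `n` of tokens, the first token sits in bits
`16 n .. 16 n + 15`, the next one below it, and so on.  Token layout: bits 0-9 the cell code (`node`)
or anchor code (`leaf`), bits 10-12 the orientation (`leaf`), bit 13 set for a `leaf`, bit 14 set for
the last alternative of its list.  A `node` token is followed by the stream of its sub-alternatives.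

`go` reads the stream in continuation-passing style and computes the same pair (intersection, union)
as `chk` does on the corresponding `Alts` value.  All bitmasks are kept shifted left by 64 bits, with
arbitrary low 64 bits: the kernel hashes a numeral by its low 64 bits, so these bits carry a salt
that keeps the kernel's caches efficient; `fz` forces evaluation inside the kernel.  The tables `TC`
(cell map, 10 bits per cell) and `TO` (orientation map, 3 bits per orientation) are applied to the
tokens first; they are arbitrary, which lets one stream serve for all symmetric images of a tree.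
-/

set_option autoImplicit false

namespace Crest.Agent.Helper17.Snaky

/-- Forced evaluation: definitionally `k x`. -/
def fz (x : Nat) (k : Nat → Bool) : Bool :=
  Nat.rec (motive := fun _ => Bool) (k 0) (fun m _ => k m) (Nat.succ x)

/-- Continuations: intersection, union, rest of the stream (numeral, tokens left in it, further
numerals). -/
abbrev K : Type := Nat → Nat → Nat → Nat → List Nat → Bool

/-- Stream readers: numeral, tokens left in it, further numerals, fuel `d`, stones, accumulated
intersection and union, continuation. -/
abbrev G : Type := Nat → Nat → List Nat → Nat → Nat → Nat → Nat → K → Bool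

/-- The eight copies of the hexomino, each in a 272-bit slot, shifted by 132 bits. -/
def tsLit : Nat := 0x100000001000000010000000180000000800080000001800000010000000100000001000000000000000000000000000000000000000000000000000000000000000000010000000100000001000000030000000200020000000300000001000000010000000100000000000000000000000000000000000000000000000000000000000000000001e0000000300000000000000000000000000000000000000000000000000030000001e000000000000000000000000000000000000000000000000000000000000000000f0000001800000000000000000000000000000000000000000000000000180000000f000000000000000000000000000000000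

/-- The admissible anchor codes. -/
def vaLit : Nat := 0xffffff00ffffff00ffffff00ffffff00ffffff00ffffff00ffffff00ffffff00ffffff00ffffff00ffffff00ffffff00ffffff00ffffff00ffffff00ffffff00ffffff00ffffff00ffffff00ffffff00ffffff00ffffff00ffffff00ffffff000000000000000000000000000000000

/-- The full window, shifted by 64 bits. -/
def allT : Nat := 0xffffffffffffffffffffffffffffffffffffffffffffffffffffffffffffffffffffffffffffffffffffffffffffffffffffffffffffffffffffffffffffffffffffffffffffffffffffffffffffffffffffffffffffffffffffffffffffffffffffffffffffffffffffffffffffffffffffffffffffffffffffffffffffffff0000000000000000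

/-- Bitmask (shifted by 64 bits) of the copy with anchor code `t` and orientation `o`. -/
def pmaskT (TS t o : Nat) : Nat :=
  Nat.shiftRight (Nat.shiftLeft (Nat.land (Nat.shiftRight TS (Nat.mul 272 o)) 0xffffffffffffffffffffffffffffffffffffffffffffffffffffffffffffffffffff) t) 68

/-- Fast version of `leafOK` (`M` shifted by 64 bits). -/
def leafF (TS VA M t o : Nat) : Bool :=
  Bool.rec (motive := fun _ => Bool) false
    (fz (pmaskT TS t o) fun P => Nat.beq (Nat.land M P) P)
    (Nat.beq (Nat.land (Nat.shiftRight VA t) 1) 1)

/-- A `leaf` token `t`. -/
def stepLeaf (TC TO TS VA : Nat) (ih : G) (Nc j' : Nat) (Ns : List Nat) (d M Ua : Nat) (k : K)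
    (t : Nat) : Bool :=
  Bool.rec (motive := fun _ => Bool) false
    (Bool.rec (motive := fun _ => Bool) (ih Nc j' Ns d M 0 Ua k) (k 0 Ua Nc j' Ns)
      (Nat.beq (Nat.land (Nat.shiftRight t 14) 1) 1))
    (leafF TS VA M (Nat.land (Nat.shiftRight TC (Nat.mul 10 (Nat.land t 1023))) 1023)
      (Nat.land (Nat.shiftRight TO (Nat.mul 3 (Nat.land (Nat.shiftRight t 10) 7))) 7))

/-- A `node` token `t`. -/
def stepNode (TC : Nat) (ih : G) (Nc j' : Nat) (Ns : List Nat) (d M Ia Ua : Nat) (k : K)
    (t : Nat) : Bool :=
  Nat.rec (motive := fun _ => Bool) false (fun d' _ =>
    fz (Nat.land (Nat.shiftRight TC (Nat.mul 10 (Nat.land t 1023))) 1023) fun c =>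
    fz (Nat.lor (Nat.shiftLeft 1 (Nat.add c 64)) c) fun b =>
    Bool.rec (motive := fun _ => Bool) false
      (fz (Nat.xor (Nat.lor M b) (Nat.land (Nat.mul (Nat.succ c) 0x9e3779b97f4a7c15)
          0xffffffffffffffff)) fun M' =>
        ih Nc j' Ns d' M' 0xffffffffffffffffffffffffffffffffffffffffffffffffffffffffffffffffffffffffffffffffffffffffffffffffffffffffffffffffffffffffffffffffffffffffffffffffffffffffffffffffffffffffffffffffffffffffffffffffffffffffffffffffffffffffffffffffffffffffffffffffffffffffffffffff0000000000000000 0 (fun I1 U1 N1 j1 Ns1 =>
          Bool.rec (motive := fun _ => Bool) false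
            (fz (Nat.xor (Nat.lor U1 b) (Nat.land M' 0xffffffffffffffff)) fun car =>
              Bool.rec (motive := fun _ => Bool)
                (ih N1 j1 Ns1 d M (Nat.land Ia car) (Nat.lor Ua car) k)
                (k (Nat.land (Nat.land Ia car) 0xffffffffffffffffffffffffffffffffffffffffffffffffffffffffffffffffffffffffffffffffffffffffffffffffffffffffffffffffffffffffffffffffffffffffffffffffffffffffffffffffffffffffffffffffffffffffffffffffffffffffffffffffffffffffffffffffffffffffffffffffffffffffffffffff0000000000000000) (Nat.lor Ua car) N1 j1 Ns1)
                (Nat.beq (Nat.land (Nat.shiftRight t 14) 1) 1))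
            (Nat.beq (Nat.shiftRight I1 64) 0)))
      (Nat.beq (Nat.shiftRight (Nat.land M b) 64) 0))
    d

/-- One step of the reader. -/
def step (TC TO TS VA : Nat) (ih : G) : G := fun Nc j Ns d M Ia Ua k =>
  Nat.rec (motive := fun _ => Bool)
    (List.rec (motive := fun _ => Bool) false
      (fun N1 Ns1 _ => ih N1 (Nat.land N1 65535) Ns1 d M Ia Ua k) Ns)
    (fun j' _ =>
      fz (Nat.land (Nat.shiftRight Nc (Nat.mul 16 j)) 65535) fun t =>
        Bool.rec (motive := fun _ => Bool)
          (stepNode TC ih Nc j' Ns d M Ia Ua k t)
          (stepLeaf TC TO TS VA ih Nc j' Ns d M Ua k t)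
          (Nat.beq (Nat.land (Nat.shiftRight t 13) 1) 1))
    j

/-- The reader with fuel. -/
def go (TC TO TS VA : Nat) (f : Nat) : G :=
  Nat.rec (motive := fun _ => G) (fun _ _ _ _ _ _ _ _ => false)
    (fun _ ih => step TC TO TS VA ih) f

/-- Final continuation: the intersection is empty and the union is `U`. -/
def kfin (U : Nat) : K := fun I U' _ _ _ =>
  Bool.rec (motive := fun _ => Bool) false (Nat.beq (Nat.shiftRight U' 64) U)
    (Nat.beq (Nat.shiftRight I 64) 0)

/-- The fast checker on a whole stream with reader fuel `F`: tables `TC`, `TO`, stream `L`,
fuel `d`, stones `M`, expected union `U`. -/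
def fastChkF (F TC TO : Nat) (L : List Nat) (d M U : Nat) : Bool :=
  fz tsLit fun TS => fz vaLit fun VA => fz TC fun TC' => fz TO fun TO' =>
    fz (Nat.shiftLeft M 64) fun Mt =>
      go TC' TO' TS VA F 0 0 L d Mt 0xffffffffffffffffffffffffffffffffffffffffffffffffffffffffffffffffffffffffffffffffffffffffffffffffffffffffffffffffffffffffffffffffffffffffffffffffffffffffffffffffffffffffffffffffffffffffffffffffffffffffffffffffffffffffffffffffffffffffffffffffffffffffffffffff0000000000000000 0 (kfin U)

/-- The fast checker on a whole stream. -/
def fastChk (TC TO : Nat) (L : List Nat) (d M U : Nat) : Bool :=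
  fastChkF 1000000000 TC TO L d M U

end Crest.Agent.Helper17.Snaky
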